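import Vale.Agent.P181.Main

/-!
Foulkes' conjecture holds, by injectivity of the Foulkes-Howe map, whenever
`a ≤ b` and `(2a-3)(a-1) ≤ b`.
-/

namespace Vale.Agent.Results.P181.FoulkesQuadraticThreshold

open scoped TensorProduct
open Vale.Agent.P181

universe u

theorem result :
    ∀ (a b : ℕ), a ≤ b → (2 * a - 3) * (a - 1) ≤ b →
      ∀ (V : Type u) [AddCommGroup V] [Module ℂ V],
        ∃ Ψ : Sym[ℂ]^a (Sym[ℂ]^b V) →ₗ[ℂ] Sym[ℂ]^b (Sym[ℂ]^a V),
          Function.Injective Ψ ∧
          (∀ v : Fin a → Fin b → V,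
            Ψ (SymmetricPower.tprod ℂ fun i => SymmetricPower.tprod ℂ (v i)) =
              ∑ σ : Fin a → Equiv.Perm (Fin b),
                SymmetricPower.tprod ℂ fun j => SymmetricPower.tprod ℂ fun i => v i (σ i j)) ∧
          (∀ g : V →ₗ[ℂ] V, Ψ.comp (symMap a (symMap b g)) =
            (symMap b (symMap a g)).comp Ψ) := by
  intro a b hab hb V _ _
  let bas := Module.Free.chooseBasis ℂ V
  exact ⟨foulkesHowe bas a b, foulkesHowe_injective bas hab hb, foulkesHowe_tprod bas,
    foulkesHowe_equivariant bas⟩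

end Vale.Agent.Results.P181.FoulkesQuadraticThreshold
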